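import Mathlib
import Vale.Agent.P217.Interfaces

/-!
# P217, block D: the integral tilt of C_p and its absolute value
-/

noncomputable section

namespace Vale.Agent.P217.D

open Filter Topology
open scoped NNReal

variable (p : ℕ) [Fact p.Prime]

abbrev O : Type := PadicComplexInt p

lemma mem_O_iff (x : PadicComplex p) : x ∈ PadicComplexInt p ↔ ‖x‖ ≤ 1 := by
  rw [PadicComplex.norm_eq_norm, Valued.v.norm_def]
  simp only [PadicComplex.RankOne.hom_eq_embedding]
  show Valued.v x ≤ 1 ↔ _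
  rw [Valuation.embedding_restrict]
  exact_mod_cast Iff.rfl

lemma norm_O_le_one (x : O p) : ‖(x : PadicComplex p)‖ ≤ 1 := (mem_O_iff p _).1 x.2

lemma norm_p : ‖(p : PadicComplex p)‖ = (p : ℝ)⁻¹ := by
  have h := PadicComplex.norm_extends' p (p : ℚ_[p])
  rw [Padic.norm_p] at h
  simpa using h

lemma inv_p_pos : (0 : ℝ) < (p : ℝ)⁻¹ := by
  have := (Fact.out : p.Prime).pos
  positivity

lemma inv_p_lt_one : (p : ℝ)⁻¹ < 1 := by
  have := (Fact.out : p.Prime).one_lt
  exact inv_lt_one_of_one_lt₀ (by exact_mod_cast this)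

lemma dvd_p_pow_iff (x : O p) (n : ℕ) :
    (p : O p) ^ n ∣ x ↔ ‖(x : PadicComplex p)‖ ≤ ((p : ℝ)⁻¹) ^ n := by
  constructor
  · rintro ⟨y, rfl⟩
    push_cast
    rw [norm_mul, norm_pow, norm_p]
    exact mul_le_of_le_one_right (pow_nonneg (inv_p_pos p).le n) (norm_O_le_one p y)
  · intro h
    have hp0 : (p : PadicComplex p) ^ n ≠ 0 :=
      pow_ne_zero _ (Nat.cast_ne_zero.2 (Fact.out : p.Prime).ne_zero)
    have hy : ‖(x : PadicComplex p) / (p : PadicComplex p) ^ n‖ ≤ 1 := by
      rw [norm_div, norm_pow, norm_p, div_le_one (pow_pos (inv_p_pos p) n)]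
      exact h
    refine ⟨⟨_, (mem_O_iff p _).2 hy⟩, Subtype.ext ?_⟩
    push_cast
    field_simp

lemma mk_eq_zero_iff (x : O p) :
    (Ideal.Quotient.mk (Ideal.span {(p : O p)}) x) = 0 ↔
      ‖(x : PadicComplex p)‖ ≤ (p : ℝ)⁻¹ := by
  rw [Ideal.Quotient.eq_zero_iff_mem, Ideal.mem_span_singleton]
  simpa using dvd_p_pow_iff p x 1

instance : Fact (¬ IsUnit (p : O p)) := by
  constructor
  intro h
  obtain ⟨y, hy⟩ := h.exists_right_inv
  have := congrArg (fun z : O p => ‖(z : PadicComplex p)‖) hy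
  push_cast at this
  rw [norm_mul, norm_p, norm_one] at this
  nlinarith [norm_O_le_one p y, inv_p_lt_one p, inv_p_pos p, norm_nonneg (y : PadicComplex p)]

lemma smodEq_iff (n : ℕ) (x y : O p) :
    x ≡ y [SMOD (Ideal.span {(p : O p)} ^ n • ⊤ : Submodule (O p) (O p))] ↔
      ‖(x : PadicComplex p) - y‖ ≤ ((p : ℝ)⁻¹) ^ n := by
  rw [SModEq.sub_mem, smul_eq_mul, Ideal.mul_top, Ideal.span_singleton_pow,
    Ideal.mem_span_singleton, dvd_p_pow_iff]
  simp

instance : IsAdicComplete (Ideal.span {(p : O p)}) (O p) := by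
  have hlim : Tendsto (fun n : ℕ => ((p : ℝ)⁻¹) ^ n) atTop (𝓝 0) :=
    tendsto_pow_atTop_nhds_zero_of_lt_one (inv_p_pos p).le (inv_p_lt_one p)
  have hH : IsHausdorff (Ideal.span {(p : O p)}) (O p) := by
    constructor
    intro x hx
    have h0 : ‖(x : PadicComplex p)‖ ≤ 0 :=
      le_of_tendsto_of_tendsto' tendsto_const_nhds hlim fun n => by
        simpa using (smodEq_iff p n x 0).1 (hx n)
    exact Subtype.ext (norm_le_zero_iff.1 h0)
  have hP : IsPrecomplete (Ideal.span {(p : O p)}) (O p) := by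
    constructor
    intro f hf
    have hb : ∀ m n, m ≤ n → ‖(f m : PadicComplex p) - f n‖ ≤ ((p : ℝ)⁻¹) ^ m :=
      fun m n h => (smodEq_iff p m _ _).1 (hf h)
    have hc : CauchySeq fun n => (f n : PadicComplex p) :=
      cauchySeq_of_le_tendsto_0' (fun n => ((p : ℝ)⁻¹) ^ n)
        (fun m n h => by rw [dist_eq_norm]; exact hb m n h) hlim
    obtain ⟨L, hL⟩ := cauchySeq_tendsto_of_complete hc
    have hL1 : ‖L‖ ≤ 1 :=
      le_of_tendsto' hL.norm fun n => norm_O_le_one p (f n)
    refine ⟨⟨L, (mem_O_iff p L).2 hL1⟩, fun n => (smodEq_iff p n _ _).2 ?_⟩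
    refine le_of_tendsto ((tendsto_const_nhds.sub hL).norm) ?_
    exact eventually_atTop.2 ⟨n, fun m hm => hb n m hm⟩
  exact { toIsHausdorff := hH, toIsPrecomplete := hP }

abbrev P : Type := PreTilt (O p) p

/-- The n-th root of the untilt. -/
def u (n : ℕ) (x : P p) : O p := PreTilt.untilt ((frobeniusEquiv (P p) p).symm^[n] x)

lemma mk_u (n : ℕ) (x : P p) :
    Ideal.Quotient.mk (Ideal.span {(p : O p)}) (u p n x) = PreTilt.coeff n x := by
  rw [u, PreTilt.mk_untilt_eq_coeff_zero, PreTilt.coeff_iterate_frobeniusEquiv_symm, zero_add]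

lemma u_pow (n : ℕ) (x : P p) : u p n x ^ p ^ n = u p 0 x := by
  simp [u]

lemma u_mul (n : ℕ) (x y : P p) : u p n (x * y) = u p n x * u p n y := by
  simp [u, iterate_map_mul]

lemma u_one (n : ℕ) : u p n (1 : P p) = 1 := by
  simp [u, iterate_map_one]

lemma u_succ_pow (n : ℕ) (x : P p) : u p (n + 1) x ^ p = u p n x := by
  rw [u, u, Function.iterate_succ_apply', ← map_pow, frobeniusEquiv_symm_pow_p]

/-- The absolute value. -/
def N (x : P p) : ℝ := ‖(u p 0 x : PadicComplex p)‖

lemma N_eq (n : ℕ) (x : P p) : N p x = ‖(u p n x : PadicComplex p)‖ ^ p ^ n := by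
  rw [N, ← u_pow p n x, ← norm_pow]
  push_cast
  rfl

lemma norm_u_le_iff (n : ℕ) (x : P p) {r : ℝ} (hr : 0 ≤ r) :
    ‖(u p n x : PadicComplex p)‖ ≤ r ↔ N p x ≤ r ^ p ^ n := by
  rw [N_eq p n x]
  exact (pow_le_pow_iff_left₀ (norm_nonneg _) hr
    (pow_ne_zero _ (Fact.out : p.Prime).ne_zero)).symm

lemma coeff_eq_zero_iff (n : ℕ) (x : P p) :
    PreTilt.coeff n x = 0 ↔ N p x ≤ ((p : ℝ)⁻¹) ^ p ^ n := by
  rw [← mk_u, mk_eq_zero_iff, norm_u_le_iff p n x (inv_p_pos p).le]

lemma tendsto_tiny : Tendsto (fun n : ℕ => ((p : ℝ)⁻¹) ^ p ^ n) atTop (𝓝 0) :=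
  (tendsto_pow_atTop_nhds_zero_of_lt_one (inv_p_pos p).le (inv_p_lt_one p)).comp
    (tendsto_pow_atTop_atTop_of_one_lt (Fact.out : p.Prime).one_lt)

lemma N_eq_zero (x : P p) : N p x = 0 ↔ x = 0 := by
  constructor
  · intro h
    refine Perfection.ext fun n => ?_
    show PreTilt.coeff n x = PreTilt.coeff n (0 : P p)
    rw [map_zero]
    exact (coeff_eq_zero_iff p n x).2 (by rw [h]; exact pow_nonneg (inv_p_pos p).le _)
  · rintro rfl
    refine le_antisymm ?_ (norm_nonneg _)
    exact le_of_tendsto_of_tendsto' tendsto_const_nhds (tendsto_tiny p)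
      fun n => (coeff_eq_zero_iff p n 0).1 (map_zero _)

lemma N_mul (x y : P p) : N p (x * y) = N p x * N p y := by
  simp [N, u_mul]

lemma N_one : N p (1 : P p) = 1 := by
  simp [N, u_one]

lemma N_add (x y : P p) : N p (x + y) ≤ max (N p x) (N p y) := by
  have h : ∀ n, N p (x + y) ≤ max (max (N p x) (N p y)) (((p : ℝ)⁻¹) ^ p ^ n) := by
    intro n
    have hd : ‖(u p n (x + y) : PadicComplex p) - (u p n x + u p n y)‖ ≤ (p : ℝ)⁻¹ := by
      have := (mk_eq_zero_iff p (u p n (x + y) - (u p n x + u p n y))).1 (by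
        simp [mk_u])
      simpa using this
    have hu : ‖(u p n (x + y) : PadicComplex p)‖ ≤
        max (max ‖(u p n x : PadicComplex p)‖ ‖(u p n y : PadicComplex p)‖) (p : ℝ)⁻¹ := by
      calc ‖(u p n (x + y) : PadicComplex p)‖
          = ‖((u p n x : PadicComplex p) + u p n y) +
              ((u p n (x + y) : PadicComplex p) - (u p n x + u p n y))‖ := by
            congr 1; ring
        _ ≤ _ := le_trans (IsUltrametricDist.norm_add_le_max _ _)
            (max_le_max (IsUltrametricDist.norm_add_le_max _ _) hd)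
    rw [norm_u_le_iff p n _ (le_trans (inv_p_pos p).le (le_max_right _ _))] at hu
    refine hu.trans (le_of_eq ?_)
    have hm : ∀ a b : ℝ, 0 ≤ a → 0 ≤ b → max a b ^ p ^ n = max (a ^ p ^ n) (b ^ p ^ n) := by
      intro a b ha hb
      rcases le_total a b with h | h
      · rw [max_eq_right h, max_eq_right (pow_le_pow_left₀ ha h _)]
      · rw [max_eq_left h, max_eq_left (pow_le_pow_left₀ hb h _)]
    rw [hm _ _ (le_trans (norm_nonneg _) (le_max_left _ _)) (inv_p_pos p).le,
      hm _ _ (norm_nonneg _) (norm_nonneg _), ← N_eq p n x, ← N_eq p n y]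
  exact le_trans (le_of_tendsto_of_tendsto' tendsto_const_nhds
    (tendsto_const_nhds.max (tendsto_tiny p)) h)
    (max_le le_rfl (le_trans (norm_nonneg _) (le_max_left _ _)))

instance : IsDomain (P p) :=
  PreTilt.isDomain (PadicComplex p) Valued.v (O p) (PadicComplexInt.integers p) p

/-- The absolute value as a valuation. -/
def val : Valuation (P p) ℝ≥0 where
  toFun x := ⟨N p x, norm_nonneg _⟩
  map_zero' := NNReal.eq ((N_eq_zero p 0).2 rfl)
  map_one' := NNReal.eq (N_one p)
  map_mul' x y := NNReal.eq (N_mul p x y)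
  map_add_le_max' x y := by
    rcases le_max_iff.1 (N_add p x y) with h | h
    · exact le_max_of_le_left h
    · exact le_max_of_le_right h

lemma val_apply (x : P p) : ((val p x : ℝ≥0) : ℝ) = N p x := rfl

abbrev Fr : Type := FractionRing (P p)

/-- The valuation on the fraction field. -/
def valK : Valuation (Fr p) ℝ≥0 :=
  (val p).extendToLocalization (S := nonZeroDivisors (P p)) (fun x hx h => by
    have : val p x = 0 := h
    exact nonZeroDivisors.ne_zero hx ((N_eq_zero p x).1 (congrArg NNReal.toReal this))) (Fr p)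

lemma valK_map (x : P p) : valK p (algebraMap (P p) (Fr p) x) = val p x :=
  Valuation.extendToLocalization_apply_map_apply _ _ _ _

/-- The absolute value on the fraction field. -/
def absK : AbsoluteValue (Fr p) ℝ where
  toFun x := (valK p x : ℝ)
  map_mul' x y := by simp
  nonneg' x := NNReal.coe_nonneg _
  eq_zero' x := by simp
  add_le' x y := by
    have h := (valK p).map_add x y
    refine le_trans (NNReal.coe_le_coe.2 h) ?_
    rw [NNReal.coe_max]
    exact max_le (le_add_of_nonneg_right (NNReal.coe_nonneg _))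
      (le_add_of_nonneg_left (NNReal.coe_nonneg _))

end Vale.Agent.P217.D
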