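import Mathlib
import Vale.Agent.P217.Interfaces
import Vale.Agent.P217.D.Tilt

/-!
# P217, block D: the tilt as a complete algebraically closed normed field, and untilt data
-/

noncomputable section

namespace Vale.Agent.P217.D

open Filter Topology

variable (p : ℕ) [Fact p.Prime]

/-- The tilt of C_p. -/
def C : Type := Fr p

instance : Field (C p) := inferInstanceAs (Field (Fr p))

instance instNormedField : NormedField (C p) :=
  AbsoluteValue.toNormedField (K := C p) (absK p)

/-- The inclusion of the integral tilt. -/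
def iota : P p →+* C p := algebraMap (P p) (Fr p)

lemma norm_def (a : C p) : ‖a‖ = (valK p a : ℝ) := rfl

lemma norm_iota (x : P p) : ‖iota p x‖ = N p x := by
  rw [norm_def]
  show ((valK p (algebraMap (P p) (Fr p) x) : NNReal) : ℝ) = _
  rw [valK_map, val_apply]

instance : IsUltrametricDist (C p) :=
  IsUltrametricDist.isUltrametricDist_of_forall_norm_add_le_max_norm fun x y => by
    rw [norm_def, norm_def, norm_def, ← NNReal.coe_max, NNReal.coe_le_coe]
    exact (valK p).map_add x y

lemma iota_injective : Function.Injective (iota p) :=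
  IsFractionRing.injective (P p) (Fr p)

instance : CharP (C p) p :=
  charP_of_injective_ringHom (iota_injective p) p

lemma norm_iota_le_one (x : P p) : ‖iota p x‖ ≤ 1 := by
  rw [norm_iota]; exact norm_O_le_one p _

lemma exists_iota {a : C p} (ha : ‖a‖ ≤ 1) : ∃ x, iota p x = a := by
  obtain ⟨f, g, hg, hfg⟩ := IsFractionRing.div_surjective (A := P p) (K := Fr p) a
  have hg0 : g ≠ 0 := nonZeroDivisors.ne_zero hg
  have ha' : a = iota p f / iota p g := hfg.symm
  have hgi : iota p g ≠ 0 := (map_ne_zero_iff _ (iota_injective p)).2 hg0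
  have hle : N p f ≤ N p g := by
    rw [ha', norm_div, div_le_one (norm_pos_iff.2 hgi), norm_iota, norm_iota] at ha
    exact ha
  have hNg : 0 < N p g :=
    lt_of_le_of_ne (norm_nonneg _) (fun h => hg0 ((N_eq_zero p g).1 h.symm))
  have hu0 : ∀ n, (u p n g : PadicComplex p) ≠ 0 := by
    intro n h
    rw [N_eq p n g, h, norm_zero, zero_pow (pow_ne_zero _ (Fact.out : p.Prime).ne_zero)] at hNg
    exact lt_irrefl _ hNg
  have hz : ∀ n, ‖(u p n f : PadicComplex p) / u p n g‖ ≤ 1 := by
    intro n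
    rw [norm_div, div_le_one (norm_pos_iff.2 (hu0 n)), norm_u_le_iff p n f (norm_nonneg _),
      ← N_eq]
    exact hle
  let z : ℕ → O p := fun n => ⟨_, (mem_O_iff p _).2 (hz n)⟩
  have hzp : ∀ n, z (n + 1) ^ p = z n := fun n => Subtype.ext (by
    push_cast
    simp only [z, div_pow, ← u_succ_pow p n]
    push_cast
    rfl)
  let x : P p := ⟨fun n => Ideal.Quotient.mk _ (z n), fun n => by rw [← map_pow, hzp]⟩
  have hx : g * x = f := Perfection.ext fun n => by
    show PreTilt.coeff n (g * x) = PreTilt.coeff n f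
    rw [map_mul, ← mk_u p n g, ← mk_u p n f]
    show Ideal.Quotient.mk _ (u p n g) * Ideal.Quotient.mk _ (z n) = _
    rw [← map_mul]
    congr 1
    exact Subtype.ext (by push_cast; exact mul_div_cancel₀ _ (hu0 n))
  refine ⟨x, ?_⟩
  rw [ha', ← hx, map_mul, mul_div_cancel_left₀ _ hgi]

lemma coeff_surjective (n : ℕ) : Function.Surjective (PreTilt.coeff (O := O p) (p := p) n) := by
  refine Perfection.coeff_surjective (fun y => ?_) n
  obtain ⟨w, rfl⟩ := Ideal.Quotient.mk_surjective y
  obtain ⟨r, hr⟩ := IsAlgClosed.exists_pow_nat_eq (w : PadicComplex p) (Fact.out : p.Prime).pos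
  have hr1 : ‖r‖ ≤ 1 := by
    rw [← pow_le_one_iff_of_nonneg (norm_nonneg r) (Fact.out : p.Prime).ne_zero, ← norm_pow, hr]
    exact norm_O_le_one p w
  refine ⟨Ideal.Quotient.mk _ ⟨r, (mem_O_iff p r).2 hr1⟩, ?_⟩
  rw [frobenius_def, ← map_pow]
  congr 1
  exact Subtype.ext (by push_cast; exact hr)

lemma exists_uniformizer : ∃ a : P p, 0 < N p a ∧ N p a < 1 := by
  obtain ⟨r, hr⟩ := IsAlgClosed.exists_pow_nat_eq (p : PadicComplex p) (Fact.out : p.Prime).pos
  have hrp : ‖r‖ ^ p = (p : ℝ)⁻¹ := by rw [← norm_pow, hr, norm_p]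
  have hr1 : ‖r‖ < 1 := by
    rw [← pow_lt_one_iff_of_nonneg (norm_nonneg r) (Fact.out : p.Prime).ne_zero, hrp]
    exact inv_p_lt_one p
  have hlt : (p : ℝ)⁻¹ < ‖r‖ := by
    have h0 : 0 < ‖r‖ := by
      rcases (norm_nonneg r).eq_or_lt with h | h
      · rw [← h, zero_pow (Fact.out : p.Prime).ne_zero] at hrp
        exact absurd hrp (inv_p_pos p).ne
      · exact h
    calc (p : ℝ)⁻¹ = ‖r‖ ^ p := hrp.symm
      _ < ‖r‖ := pow_lt_self_of_lt_one₀ h0 hr1 (Fact.out : p.Prime).one_lt
  obtain ⟨a, ha⟩ := coeff_surjective p 0 (Ideal.Quotient.mk _ ⟨r, (mem_O_iff p r).2 hr1.le⟩)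
  have hd : ‖(u p 0 a : PadicComplex p) - r‖ ≤ (p : ℝ)⁻¹ := by
    have := (mk_eq_zero_iff p (u p 0 a - ⟨r, (mem_O_iff p r).2 hr1.le⟩)).1 (by
      rw [map_sub, mk_u, ha, sub_self])
    simpa using this
  have hN : N p a = ‖r‖ := by
    rw [N, show (u p 0 a : PadicComplex p) = r + ((u p 0 a : PadicComplex p) - r) by ring]
    have hne : ‖r‖ ≠ ‖(u p 0 a : PadicComplex p) - r‖ := ne_of_gt (lt_of_le_of_lt hd hlt)
    rw [IsUltrametricDist.norm_add_eq_max_of_norm_ne_norm hne,
      max_eq_left (lt_of_le_of_lt hd hlt).le]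
  exact ⟨a, hN ▸ lt_trans (inv_p_pos p) hlt, hN ▸ hr1⟩

instance instNontriviallyNormedField : NontriviallyNormedField (C p) where
  toNormedField := instNormedField p
  non_trivial := by
    obtain ⟨a, h0, h1⟩ := exists_uniformizer p
    exact ⟨(iota p a)⁻¹, by
      rw [norm_inv, norm_iota]; exact one_lt_inv_iff₀.2 ⟨h0, h1⟩⟩

instance : CompleteSpace (C p) := by
  refine Metric.complete_of_cauchySeq_tendsto fun a ha => ?_
  -- first rescale into the unit ball
  obtain ⟨b, hb0, hb1⟩ := exists_uniformizer p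
  obtain ⟨R, hR⟩ : ∃ R, ∀ n, ‖a n‖ ≤ R := by
    obtain ⟨R, -, hR⟩ := cauchySeq_bdd ha
    exact ⟨R + ‖a 0‖, fun n => by
      have h1 := norm_le_norm_add_norm_sub' (a n) (a 0)
      have h2 := hR n 0
      rw [dist_eq_norm] at h2
      linarith [norm_nonneg (a 0)]⟩
  obtain ⟨k, hk⟩ : ∃ k : ℕ, N p b ^ k * max R 1 ≤ 1 := by
    obtain ⟨k, hk⟩ := exists_pow_lt_of_lt_one (inv_pos.2 (lt_of_lt_of_le one_pos (le_max_right R 1)))
      hb1
    exact ⟨k, by
      have := mul_le_mul_of_nonneg_right hk.le (le_trans zero_le_one (le_max_right R 1))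
      rwa [inv_mul_cancel₀ (lt_of_lt_of_le one_pos (le_max_right R 1)).ne'] at this⟩
  have hc : iota p b ^ k ≠ 0 := pow_ne_zero _ fun h => by
    rw [← norm_iota, h, norm_zero] at hb0; exact lt_irrefl _ hb0
  have hs : ∀ n, ‖iota p b ^ k * a n‖ ≤ 1 := fun n => by
    rw [norm_mul, norm_pow, norm_iota]
    exact le_trans (mul_le_mul_of_nonneg_left ((hR n).trans (le_max_left R 1))
      (pow_nonneg hb0.le _)) hk
  choose x hx using fun n => exists_iota p (hs n)
  have hcs : ∀ ε > 0, ∃ M, ∀ m ≥ M, ∀ n ≥ M, N p (x m - x n) ≤ ε := by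
    intro ε hε
    have hck : (0 : ℝ) < ‖iota p b ^ k‖ := norm_pos_iff.2 hc
    obtain ⟨M, hM⟩ := Metric.cauchySeq_iff.1 ha (ε / ‖iota p b ^ k‖) (div_pos hε hck)
    refine ⟨M, fun m hm n hn => ?_⟩
    rw [← norm_iota, map_sub, hx, hx, ← mul_sub, norm_mul, ← dist_eq_norm]
    have := hM m hm n hn
    rw [lt_div_iff₀ hck] at this
    linarith
  choose M hM using fun j : ℕ => hcs (((p : ℝ)⁻¹) ^ p ^ j) (pow_pos (inv_p_pos p) _)
  have hst : ∀ j, ∀ m ≥ M j, ∀ n ≥ M j, PreTilt.coeff j (x m) = PreTilt.coeff j (x n) := by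
    intro j m hm n hn
    rw [← sub_eq_zero, ← map_sub, coeff_eq_zero_iff]
    exact hM j m hm n hn
  let L : P p := ⟨fun j => PreTilt.coeff j (x (M j)), fun j => by
    have h1 : PreTilt.coeff (j + 1) (x (M (j + 1))) =
        PreTilt.coeff (j + 1) (x (max (M j) (M (j + 1)))) :=
      hst _ _ le_rfl _ (le_max_right _ _)
    show PreTilt.coeff (j + 1) (x (M (j + 1))) ^ p = _
    rw [h1, PreTilt.coeff_pow_p]
    exact hst j _ (le_max_left _ _) _ le_rfl⟩
  refine ⟨(iota p b ^ k)⁻¹ * iota p L, ?_⟩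
  have : Tendsto (fun n => iota p (x n)) atTop (𝓝 (iota p L)) := by
    rw [Metric.tendsto_atTop]
    intro ε hε
    obtain ⟨j, hj⟩ := ((tendsto_tiny p).eventually (gt_mem_nhds hε)).exists
    refine ⟨M j, fun n hn => ?_⟩
    rw [dist_eq_norm, ← map_sub, norm_iota]
    refine lt_of_le_of_lt ((coeff_eq_zero_iff p j _).1 ?_) hj
    rw [map_sub, sub_eq_zero]
    exact hst j n hn _ le_rfl
  simp only [hx] at this
  have h2 := this.const_mul (iota p b ^ k)⁻¹
  simpa [← mul_assoc, inv_mul_cancel₀ hc] using h2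

lemma exists_small_value (g : Polynomial (P p)) (hg : g.Monic) (hd : 0 < g.natDegree) (n : ℕ) :
    ∃ x : P p, N p (g.eval x) ≤ ((p : ℝ)⁻¹) ^ p ^ n := by
  obtain ⟨G, hG, hGdeg, hGm⟩ := Polynomial.lifts_and_degree_eq_and_monic
    (f := Ideal.Quotient.mk (Ideal.span {(p : O p)}))
    (p := g.map (PreTilt.coeff n))
    (Polynomial.mem_lifts _ |>.2 (Polynomial.map_surjective _ Ideal.Quotient.mk_surjective _))
    (hg.map _)
  have hdeg : 0 < G.natDegree := by
    rw [Polynomial.natDegree_eq_of_degree_eq hGdeg, hg.natDegree_map]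
    exact hd
  obtain ⟨r, hr⟩ := IsAlgClosed.exists_root (G.map (algebraMap (O p) (PadicComplex p))) (by
    rw [Polynomial.degree_map_eq_of_injective Subtype.val_injective]
    exact (Polynomial.natDegree_pos_iff_degree_pos.1 hdeg).ne')
  have hrmem : r ∈ PadicComplexInt p := by
    have hint : IsIntegral (O p) r := ⟨G, hGm, by
      rw [← Polynomial.eval_map]; exact hr⟩
    obtain ⟨w, hw⟩ := (IsIntegrallyClosed.isIntegral_iff (R := O p)).1 hint
    exact hw ▸ w.2
  obtain ⟨x, hx⟩ := coeff_surjective p n (Ideal.Quotient.mk _ ⟨r, hrmem⟩)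
  refine ⟨x, (coeff_eq_zero_iff p n _).1 ?_⟩
  rw [← Polynomial.eval₂_at_apply, ← Polynomial.eval_map, hx, ← hG, Polynomial.eval_map,
    Polynomial.eval₂_at_apply]
  have : G.eval ⟨r, hrmem⟩ = 0 := Subtype.val_injective (by
    have h := Polynomial.eval₂_at_apply (p := G) (algebraMap (O p) (PadicComplex p)) ⟨r, hrmem⟩
    rw [← Polynomial.eval_map] at h
    exact (h.symm.trans hr).trans rfl)
  rw [this, map_zero]

lemma exists_root_of_small {g : Polynomial (C p)} (hg : g.Monic) (hd : 0 < g.natDegree)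
    (h : ∀ ε > 0, ∃ x : C p, ‖g.eval x‖ ≤ ε) : ∃ z, g.eval z = 0 := by
  let L := AlgebraicClosure (C p)
  let : NormedField L := spectralNorm.normedField (C p) L
  have hiso : Isometry (algebraMap (C p) L) :=
    AddMonoidHomClass.isometry_of_norm _ fun x => spectralNorm_extends x
  have hcl : IsClosed (Set.range (algebraMap (C p) L)) := hiso.isClosedEmbedding.isClosed_range
  set G := g.map (algebraMap (C p) L) with hG
  have hGm : G.Monic := hg.map _
  have hsplit : G = (G.roots.map fun a => Polynomial.X - Polynomial.C a).prod :=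
    (IsAlgClosed.splits G).eq_prod_roots_of_monic hGm
  have hcard : G.roots.card = g.natDegree := by
    rw [IsAlgClosed.card_roots_eq_natDegree, hg.natDegree_map]
  by_contra hno
  push Not at hno
  have hfar : ∀ a ∈ G.roots, a ∉ Set.range (algebraMap (C p) L) := by
    rintro a ha ⟨z, rfl⟩
    have := (Polynomial.mem_roots hGm.ne_zero).1 ha
    rw [hG, Polynomial.IsRoot, Polynomial.eval_map, Polynomial.eval₂_at_apply] at this
    exact hno z ((algebraMap (C p) L).injective (this.trans (map_zero _).symm))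
  have hpos : ∀ a ∈ G.roots, 0 < Metric.infDist a (Set.range (algebraMap (C p) L)) :=
    fun a ha => (hcl.notMem_iff_infDist_pos (Set.range_nonempty _)).1 (hfar a ha)
  obtain ⟨ε, hε, hlt⟩ : ∃ ε > 0, ε < (G.roots.map fun a =>
      Metric.infDist a (Set.range (algebraMap (C p) L))).prod := by
    have : 0 < (G.roots.map fun a =>
        Metric.infDist a (Set.range (algebraMap (C p) L))).prod := by
      refine lt_of_le_of_ne (Multiset.prod_nonneg fun r hr => ?_) (Ne.symm ?_)
      · obtain ⟨a, -, rfl⟩ := Multiset.mem_map.1 hr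
        exact Metric.infDist_nonneg
      · intro h0
        obtain ⟨a, ha, ha0⟩ := Multiset.mem_map.1 (Multiset.prod_eq_zero_iff.1 h0)
        exact (hpos a ha).ne' ha0
    exact ⟨_, half_pos this, half_lt_self this⟩
  obtain ⟨x, hx⟩ := h ε hε
  refine absurd hx (not_le.2 (lt_of_lt_of_le hlt ?_))
  have he : ‖g.eval x‖ = (G.roots.map fun a => ‖algebraMap (C p) L x - a‖).prod := by
    rw [← hiso.norm_map_of_map_zero (map_zero _), ← Polynomial.eval₂_at_apply,
      ← Polynomial.eval_map, ← hG]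
    conv_lhs => rw [hsplit]
    rw [Polynomial.eval_multiset_prod, Multiset.map_map,
      ← normHom_apply (α := L), map_multiset_prod, Multiset.map_map]
    simp [Function.comp_def]
  rw [he]
  exact Multiset.prod_map_le_prod_map₀ _ _ (fun a _ => Metric.infDist_nonneg) fun a _ => by
    rw [← dist_eq_norm, dist_comm]
    exact Metric.infDist_le_dist_of_mem ⟨x, rfl⟩

instance : IsAlgClosed (C p) := by
  refine IsAlgClosed.of_exists_root _ fun f hf hirr => ?_
  obtain ⟨b, hb0, hb1⟩ := exists_uniformizer p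
  obtain ⟨B, hB⟩ : ∃ B, 1 ≤ B ∧ ∀ i, ‖f.coeff i‖ ≤ B := by
    refine ⟨1 + ∑ i ∈ f.support, ‖f.coeff i‖, le_add_of_nonneg_right
      (Finset.sum_nonneg fun i _ => norm_nonneg _), fun i => ?_⟩
    by_cases hi : i ∈ f.support
    · exact le_add_of_nonneg_of_le zero_le_one
        (Finset.single_le_sum (f := fun i => ‖f.coeff i‖) (fun j _ => norm_nonneg _) hi)
    · rw [Polynomial.notMem_support_iff.1 hi, norm_zero]
      positivity
  obtain ⟨k, hk⟩ := exists_pow_lt_of_lt_one (inv_pos.2 (lt_of_lt_of_le one_pos hB.1)) hb1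
  set c := iota p b ^ k with hcdef
  have hcn : ‖c‖ = N p b ^ k := by rw [hcdef, norm_pow, norm_iota]
  have hc0 : c ≠ 0 := by
    rw [← norm_pos_iff, hcn]; positivity
  set g := f.scaleRoots c
  have hgm : g.Monic := (Polynomial.monic_scaleRoots_iff c).2 hf
  have hgd : 0 < g.natDegree := by
    rw [Polynomial.natDegree_scaleRoots]; exact hirr.natDegree_pos
  have hcoef : ∀ i, ‖g.coeff i‖ ≤ 1 := by
    intro i
    rw [Polynomial.coeff_scaleRoots]
    rcases lt_trichotomy i f.natDegree with hi | hi | hi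
    · rw [norm_mul, norm_pow, hcn]
      calc ‖f.coeff i‖ * (N p b ^ k) ^ (f.natDegree - i)
          ≤ B * (N p b ^ k) ^ 1 := by
            refine mul_le_mul (hB.2 i) ?_ (by positivity) (le_trans zero_le_one hB.1)
            exact pow_le_pow_of_le_one (by positivity) (pow_le_one₀ hb0.le hb1.le) (by omega)
        _ ≤ 1 := by
            rw [pow_one]
            have h := mul_le_mul_of_nonneg_left hk.le (le_trans zero_le_one hB.1)
            rwa [mul_inv_cancel₀ (lt_of_lt_of_le one_pos hB.1).ne'] at h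
    · subst hi
      rw [hf.coeff_natDegree, one_mul, Nat.sub_self, pow_zero, norm_one]
    · rw [Polynomial.coeff_eq_zero_of_natDegree_lt hi, zero_mul, norm_zero]
      exact zero_le_one
  obtain ⟨gP, hgP, hgPdeg, hgPm⟩ := Polynomial.lifts_and_degree_eq_and_monic (f := iota p)
    (p := g) ((Polynomial.lifts_iff_coeff_lifts g).2 fun i => exists_iota p (hcoef i)) hgm
  obtain ⟨z, hz⟩ := exists_root_of_small p hgm hgd fun ε hε => by
    obtain ⟨n, hn⟩ := ((tendsto_tiny p).eventually (ge_mem_nhds hε)).exists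
    obtain ⟨x, hx⟩ := exists_small_value p gP hgPm (by
      rwa [Polynomial.natDegree_eq_of_degree_eq hgPdeg]) n
    refine ⟨iota p x, ?_⟩
    rw [← hgP, Polynomial.eval_map, Polynomial.eval₂_at_apply, norm_iota]
    exact hx.trans hn
  refine ⟨z / c, ?_⟩
  have h := Polynomial.scaleRoots_eval_mul f (z / c) c
  rw [mul_div_cancel₀ _ hc0, hz] at h
  exact (mul_eq_zero.1 h.symm).resolve_left (pow_ne_zero _ hc0)

open scoped Classical in
/-- The sharp map, zero outside the unit ball. -/
def sharp (a : C p) : PadicComplex p :=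
  if h : ‖a‖ ≤ 1 then (u p 0 (exists_iota p h).choose : PadicComplex p) else 0

lemma sharp_iota (x : P p) : sharp p (iota p x) = (u p 0 x : PadicComplex p) := by
  rw [sharp, dif_pos (norm_iota_le_one p x)]
  rw [iota_injective p (exists_iota p (norm_iota_le_one p x)).choose_spec]

/-- The unit ball is the integral tilt. -/
def ballEquiv : P p ≃+* unitBall (C p) :=
  RingEquiv.ofBijective ((iota p).codRestrict (unitBall (C p)) (norm_iota_le_one p))
    ⟨fun x y h => iota_injective p (congrArg Subtype.val h),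
      fun a => (exists_iota p a.2).imp fun _ h => Subtype.ext h⟩

/-- The untilt data. -/
def untiltData : Untilt p (C p) where
  sharp := sharp p
  sharp_one := by
    rw [← map_one (iota p), sharp_iota, u_one]
    rfl
  sharp_mul a b ha hb := by
    obtain ⟨x, rfl⟩ := exists_iota p ha
    obtain ⟨y, rfl⟩ := exists_iota p hb
    rw [← map_mul, sharp_iota, sharp_iota, sharp_iota, u_mul]
    rfl
  norm_sharp a ha := by
    obtain ⟨x, rfl⟩ := exists_iota p ha
    rw [sharp_iota, norm_iota]
    rfl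
  sharp_add a b ha hb := by
    obtain ⟨x, rfl⟩ := exists_iota p ha
    obtain ⟨y, rfl⟩ := exists_iota p hb
    rw [← map_add, sharp_iota, sharp_iota, sharp_iota]
    have := (mk_eq_zero_iff p (u p 0 (x + y) - (u p 0 x + u p 0 y))).1 (by simp [mk_u])
    simpa using this
  sharp_surj w hw := by
    obtain ⟨x, hx⟩ := coeff_surjective p 0 (Ideal.Quotient.mk _ ⟨w, (mem_O_iff p w).2 hw⟩)
    refine ⟨iota p x, norm_iota_le_one p x, ?_⟩
    rw [sharp_iota]
    have := (mk_eq_zero_iff p (u p 0 x - ⟨w, (mem_O_iff p w).2 hw⟩)).1 (by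
      rw [map_sub, mk_u, hx, sub_self])
    simpa using this
  theta := (algebraMap (O p) (PadicComplex p)).comp
    ((WittVector.fontaineTheta (O p) p).comp (WittVector.map (ballEquiv p).symm.toRingHom))
  theta_teichmuller a := by
    obtain ⟨x, rfl⟩ := (ballEquiv p).surjective a
    show ((WittVector.fontaineTheta (O p) p (WittVector.map (ballEquiv p).symm.toRingHom
      (WittVector.teichmuller p (ballEquiv p x))) : O p) : PadicComplex p) = _
    rw [WittVector.map_teichmuller, RingEquiv.toRingHom_eq_coe, RingEquiv.coe_toRingHom,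
      RingEquiv.symm_apply_apply, WittVector.fontaineTheta_teichmuller]
    exact (sharp_iota p x).symm
  theta_small a := by
    obtain ⟨x, hx⟩ := (ballEquiv p).surjective (WittVector.constantCoeff a)
    rw [← hx]
    show ‖((WittVector.fontaineTheta (O p) p (WittVector.map (ballEquiv p).symm.toRingHom a) : O p) :
      PadicComplex p) - sharp p (iota p x)‖ ≤ _
    rw [sharp_iota]
    have := (mk_eq_zero_iff p
      (WittVector.fontaineTheta (O p) p (WittVector.map (ballEquiv p).symm.toRingHom a) - u p 0 x)).1 (by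
      rw [map_sub, WittVector.mk_fontaineTheta, mk_u, WittVector.map_coeff,
        show a.coeff 0 = ballEquiv p x from hx.symm]
      simp)
    simpa using this

end Vale.Agent.P217.D

namespace Vale.Agent.P217

/-- Block D. -/
theorem blockD : BlockD := fun p _ =>
  ⟨D.C p, inferInstance, inferInstance, inferInstance, inferInstance, inferInstance,
    ⟨D.untiltData p⟩⟩

end Vale.Agent.P217
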